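import Vale.Agent.P116.KF.Spec
import Vale.Agent.P116.KF.H80.EndSpec

/-!
# END', row ENDP-7: the interface between the averages of cutoffs and the assembly

`E2`: if the end `x` is almost surely a point, then there are averages of cutoffs which are at least
`1 / 2` near `x`, vanish far away (at a distance which does not depend on `ε`), and have small energy
and small square oscillations at the ends.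
-/

open Set Filter Topology Metric Bornology MeasureTheory

namespace Vale.Agent.P116.EndP

open H906 PBC Slow KF G

/-- E2: averages of cutoffs at an end which is almost surely a point -/
def E2 : Prop := ∀ {K : Set ℂ} (_ : IsCompact K) (_ : Full K) {Par : Type}
    {B : Par → ℝ → Set (Set (Set ℂ))} {Ω : Type} [TopologicalSpace Ω] [MeasurableSpace Ω]
    {P : Measure Ω} {gg : Ω → ℂ → ℂ} {𝔊 : Ω → Ultrafilter Str} (_ : FSt K B Ω P gg 𝔊)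
    {x : ℂ} (_ : x ∈ K) (_ : PtA K P gg x),
    ∃ R' : ℝ, ∀ ε > 0, ∃ f ρ : ℂ → ℝ, IsAvg K P gg f ∧ ContinuousOn f Kᶜ ∧
      (∀ z ∉ K, |f z| ≤ 1) ∧ ContinuousOn ρ Kᶜ ∧ (∀ z ∉ K, 0 ≤ ρ z) ∧ UGr Kᶜ f ρ ∧
      ∫⁻ z in Kᶜ, ENNReal.ofReal (ρ z ^ 2) ≤ ENNReal.ofReal ε ∧
      (∀ z, R' ≤ ‖z‖ → f z ≤ 0) ∧ (∃ m, ∀ z ∈ nd K m x, z ∉ K → 1 / 2 ≤ f z) ∧
      ∀ I : Finset (Set ℂ), (∀ c ∈ I, c ∈ comps K) → ∑ c ∈ I, KB.oscC K f c ^ 2 ≤ ε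

/-- `Endp4` with locally bounded flattenings (408's form) -/
def Endp4b : Prop := ∀ {K : Set ℂ} (_ : IsCompact K) (_ : Full K) {R : ℝ} (_ : 0 < R)
    (_ : lev K 0 ⊆ closedBall 0 R) {x : ℂ} (_ : x ∈ K) {m : ℕ}
    {u ρ : ℂ → ℝ} {ε : ℝ} (_ : 0 ≤ ε) (_ : ContinuousOn u Kᶜ) (_ : ContinuousOn ρ Kᶜ)
    (_ : ∀ z ∈ Kᶜ, 0 ≤ ρ z) (_ : UGr Kᶜ u ρ)
    (_ : ∫⁻ z in Kᶜ, ENNReal.ofReal (ρ z ^ 2) ≤ ENNReal.ofReal ε) {R' : ℝ} (_ : R ≤ R')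
    (_ : ∀ z, R' ≤ ‖z‖ → u z ≤ 0) (_ : ∀ z ∈ nd K m x, z ∉ K → 1 / 2 ≤ u z)
    {v : Set ℂ → ℂ → ℝ}
    (_ : ∀ w ∈ nodes K m, w ≠ nd K m x → ContinuousOn (v w) Kᶜ ∧ (∀ z, z ∉ w → v w z = u z) ∧
      (∀ z ∈ frontier w, v w z = u z) ∧ UGr Kᶜ (v w) ρ ∧ ∃ B, ∀ z ∈ w, z ∉ K → |v w z| ≤ B)
    {S : Str} (_ : G.NS K (lev K 0) S.1) (_ : ∀ P ∈ S.1, P ⊆ lev K m)
    (_ : ∀ y ∈ K, ∃ P ∈ S.1, y ∈ P) {b : Set ℂ → ℝ}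
    (_ : ∀ w ∈ nodes K m, w ≠ nd K m x → ∀ J : Finset (Set ℂ), (∀ P ∈ J, P ∈ S.1 ∧ P ⊆ w) →
      ∑ P ∈ J, diam (v w '' (P \ K)) ^ 2 ≤ b w)
    (_ : ∀ J : Finset (Set ℂ), (∀ w ∈ J, w ∈ nodes K m ∧ w ≠ nd K m x) → ∑ w ∈ J, b w ≤ ε),
    ∀ w₁ ∈ kT fk S (nd K m x), ∀ w₂ ∈ kT fk S (nd K m x),
      dist w₁ w₂ ≤ 20 * (5 * (R' + 1)) * Real.sqrt ε

end Vale.Agent.P116.EndP
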