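import Vale.Agent.P116.KF.H694.E2
import Vale.Agent.P116.KF.H80.Endp2
import Vale.Agent.P116.KF.H858.Endp3
import Vale.Agent.P116.KB.OscAPI

/-!
# END', row ENDP-7: the assembly
-/

open Set Filter Topology Metric Bornology MeasureTheory

namespace Vale.Agent.P116.EndP

open H906 PBC Slow KF G

/-- the diameter of the values over a piece -/
lemma diam_eq_oscS {K A : Set ℂ} {u : ℂ → ℝ} (h : KB.BdA K A u) :
    diam (u '' (A \ K)) = KB.oscS K u A :=
  Real.diam_eq (isBounded_iff_bddBelow_bddAbove.2 ⟨h.below, h.above⟩)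

/-- nodes of one level are disjoint -/
lemma nodes_disj {K : Set ℂ} {m : ℕ} {w w' : Set ℂ} (hw : w ∈ nodes K m) (hw' : w' ∈ nodes K m)
    (hne : w ≠ w') : Disjoint w w' := by
  obtain ⟨y, hy, rfl⟩ := hw
  obtain ⟨y', hy', rfl⟩ := hw'
  rw [disjoint_left]
  intro z hz hz'
  exact hne ((nd_eq hz).symm.trans (nd_eq hz'))

/-- the total square oscillation at the ends of several nodes of one level -/
lemma sum_Eo_le {K : Set ℂ} {m : ℕ} {f : ℂ → ℝ} {v : Set ℂ → ℂ → ℝ} {ε : ℝ}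
    (J : Finset (Set ℂ)) (hJ : ∀ w ∈ J, w ∈ nodes K m)
    (hs : ∀ I : Finset (Set ℂ), (∀ c ∈ I, c ∈ comps K) → ∑ c ∈ I, KB.oscC K f c ^ 2 ≤ ε)
    (hv : ∀ w ∈ J, KB.BdK K (v w) ∧ Summable (fun c : comps K => KB.oc K w (v w) c) ∧
      ∀ c ∈ comps K, KB.oscC K (v w) c ≤ KB.oscC K f c) :
    ∑ w ∈ J, KB.Eo K w (v w) ≤ ε := by
  classical
  have h1 : ∑ w ∈ J, KB.Eo K w (v w) = ∑' c : comps K, ∑ w ∈ J, KB.oc K w (v w) c :=
    (Summable.tsum_finsetSum fun w hw => (hv w hw).2.1).symm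
  rw [h1]
  have hε : 0 ≤ ε := by simpa using hs ∅ (by simp)
  refine Real.tsum_le_of_sum_le (fun c => Finset.sum_nonneg fun w _ => KB.oc_nonneg _ _ _ _)
    fun I => ?_
  have h2 : ∀ c : comps K, ∑ w ∈ J, KB.oc K w (v w) c ≤ KB.oscC K f c ^ 2 := by
    intro c
    have hcne : (c : Set ℂ).Nonempty := comps_nonempty c.2
    by_cases hex : ∃ w ∈ J, (c : Set ℂ) ⊆ w
    · obtain ⟨w, hw, hcw⟩ := hex
      rw [Finset.sum_eq_single w]
      · rw [KB.oc_of_sub hcw]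
        exact pow_le_pow_left₀ (KB.oscC_nonneg (hv w hw).1 c.2) ((hv w hw).2.2 c c.2) 2
      · intro w' hw' hne
        refine KB.oc_of_not_sub fun hcw' => ?_
        obtain ⟨z, hz⟩ := hcne
        exact disjoint_left.1 (nodes_disj (hJ w' hw') (hJ w hw) hne) (hcw' hz) (hcw hz)
      · intro h
        exact absurd hw h
    · push Not at hex
      rw [Finset.sum_eq_zero fun w hw => KB.oc_of_not_sub (hex w hw)]
      exact sq_nonneg _
  calc ∑ c ∈ I, ∑ w ∈ J, KB.oc K w (v w) c ≤ ∑ c ∈ I, KB.oscC K f c ^ 2 :=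
        Finset.sum_le_sum fun c _ => h2 c
    _ = ∑ c ∈ I.map (Function.Embedding.subtype _), KB.oscC K f c ^ 2 := by
        rw [Finset.sum_map]
        rfl
    _ ≤ ε := hs _ (by
        intro c hc
        rw [Finset.mem_map] at hc
        obtain ⟨c', -, rfl⟩ := hc
        exact c'.2)

/-- the pieces inside a node -/
lemma sum_pieces_le {K w : Set ℂ} {u : ℂ → ℝ} (hu : KB.BdK K u) (hw : w ⊆ lev K 0)
    {S : Set (Set ℂ)} (hS : S.Finite) (J : Finset (Set ℂ)) (hJ : ∀ P ∈ J, P ∈ S ∧ P ⊆ w) :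
    ∑ P ∈ J, diam (u '' (P \ K)) ^ 2 ≤ ∑ᶠ P ∈ S, KB.oP K w u P := by
  classical
  rw [finsum_mem_eq_finite_toFinset_sum _ hS]
  calc ∑ P ∈ J, diam (u '' (P \ K)) ^ 2 = ∑ P ∈ J, KB.oP K w u P := by
        refine Finset.sum_congr rfl fun P hP => ?_
        rw [KB.oP_of_sub (hJ P hP).2, diam_eq_oscS (hu.bdA ((hJ P hP).2.trans hw))]
    _ ≤ ∑ P ∈ hS.toFinset, KB.oP K w u P :=
        Finset.sum_le_sum_of_subset_of_nonneg (fun P hP => hS.mem_toFinset.2 (hJ P hP).1)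
          fun P _ _ => KB.oP_nonneg _ _ _ _

theorem endp_of (h2 : E2) (h1 : Endp1) (h4 : Endp4b) : KF.EndP := by
  intro K hK hf hne Par B Ω _ _ P gg 𝔊 hS hA
  refine (endp3_of h1 hK hf hS ?_).1
  intro x hx hpt ω
  refine endp2 hK hf (hS.fine ω) (hS.conv ω) hx ?_
  intro ε' hε'
  obtain ⟨R₁, hR₁⟩ := h2 hK hf hS hx hpt
  obtain ⟨R₀, hR₀⟩ := (isCompact_lev hK 0).isBounded.subset_closedBall (0:ℂ)
  set R : ℝ := max R₀ 1 with hR
  have hRpos : 0 < R := lt_of_lt_of_le one_pos (le_max_right _ _)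
  have hlev : lev K 0 ⊆ closedBall 0 R := hR₀.trans (closedBall_subset_closedBall (le_max_left _ _))
  set R' : ℝ := max R₁ R with hR'
  have hR'pos : 0 < R' := hRpos.trans_le (le_max_right _ _)
  set C : ℝ := 20 * (5 * (R' + 1)) with hC
  have hCpos : 0 < C := by positivity
  set e : ℝ := (ε' / C) ^ 2 with he
  have hepos : 0 < e := by positivity
  have hCe : C * Real.sqrt e = ε' := by
    rw [he, Real.sqrt_sq (by positivity)]
    field_simp
  obtain ⟨f, ρ, havg, hfc, hf1, hρc, hρ0, hmaj, hen, hfar, ⟨m, hnear⟩, hsum⟩ :=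
    hR₁ (e / 2) (half_pos hepos)
  have hbK : KB.BdK K f := ⟨1, fun z _ hz => hf1 z hz⟩
  have hfull : Summable fun c : comps K => KB.oscC K f c ^ 2 := by
    refine summable_of_sum_le (fun c => sq_nonneg _) (c := e / 2) fun I => ?_
    have := hsum (I.map (Function.Embedding.subtype _)) (by
        intro c hc
        rw [Finset.mem_map] at hc
        obtain ⟨c', -, rfl⟩ := hc
        exact c'.2)
    rwa [Finset.sum_map] at this
  have hhon : ∀ w, KB.Hon K w f ρ := by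
    intro w
    refine ⟨hfc, hbK, hρc, hρ0, hmaj, ?_, ?_⟩
    · refine lt_of_le_of_lt (lintegral_mono_set fun z hz => hz.2) (hen.trans_lt ENNReal.ofReal_lt_top)
    · refine Summable.of_nonneg_of_le (fun c => KB.oc_nonneg K w f c) (fun c => ?_) hfull
      by_cases hc : (c : Set ℂ) ⊆ w
      · exact (KB.oc_of_sub (u := f) (K := K) hc).le
      · exact (KB.oc_of_not_sub (u := f) (K := K) hc).trans_le (sq_nonneg _)
  -- the flattenings
  have hfl : ∀ w ∈ nodes K m, ∃ v, KB.Hon K w v ρ ∧ SMon K w v ∧ FlatOf K w f v ∧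
      ∀ ω, Adp K w (𝔊 ω : Filter Str) v := by
    rintro _ ⟨y, hy, rfl⟩
    exact hA.flat m y hy f ρ havg (hhon _)
  choose! v hvH hvS hvF hvA using hfl
  have hnf := finite_nodes hK m
  set n := hnf.toFinset.card with hn
  set δ : ℝ := e / 2 / (n + 1) with hδ
  have hδpos : 0 < δ := by positivity
  refine ⟨m, ?_⟩
  have hev : ∀ᶠ S : Str in (𝔊 ω : Filter Str), ∀ w ∈ nodes K m,
      ∑ᶠ P ∈ S.1, KB.oP K w (v w) P ≤ KB.Eo K w (v w) + δ :=
    (hnf.eventually_all).2 fun w hw => hvA w hw ω δ hδpos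
  filter_upwards [hS.ns ω, hS.fine ω m, hA.cov ω, hev] with S hns hfine hcov hbud
  have key := h4 hK hf hRpos hlev hx (m := m) (u := f) (ρ := ρ) (ε := e) hepos.le hfc hρc
    (fun z hz => hρ0 z hz) hmaj (hen.trans (ENNReal.ofReal_le_ofReal (by linarith)))
    (R' := R') (le_max_right _ _) (fun z hz => hfar z ((le_max_left _ _).trans hz)) hnear
    (v := v) (fun w hw _ => ⟨(hvH w hw).cont, (hvF w hw).off, (hvF w hw).fr, (hvH w hw).maj, ?_⟩)
    (S := S) hns hfine (fun y hy => ?_) (b := fun w => KB.Eo K w (v w) + δ)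
    (fun w hw _ J hJ => (sum_pieces_le (hvH w hw).bdK ?_ hns.fin J hJ).trans (hbud w hw))
    (fun J hJ => ?_)
  · intro w₁ hw₁ w₂ hw₂
    exact (key w₁ hw₁ w₂ hw₂).trans hCe.le
  · obtain ⟨B', hB'⟩ := (hvH w hw).bdd
    refine ⟨B', fun z hz hzK => hB' z ?_ hzK⟩
    obtain ⟨y, hy, rfl⟩ := hw
    exact G.nd_sub_lev0 m y hz
  · obtain ⟨P', hP', hyP'⟩ := hcov hy
    exact ⟨P', hP', hyP'⟩
  · obtain ⟨y, hy, rfl⟩ := hw
    exact G.nd_sub_lev0 m y
  · have h5 : ∑ w ∈ J, KB.Eo K w (v w) ≤ e / 2 :=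
      sum_Eo_le J (fun w hw => (hJ w hw).1) hsum fun w hw =>
        ⟨(hvH w (hJ w hw).1).bdK, (hvH w (hJ w hw).1).sum', (hvF w (hJ w hw).1).oscC⟩
    have h6 : J.card ≤ n := Finset.card_le_card fun w hw => hnf.mem_toFinset.2 (hJ w hw).1
    have h7 : (J.card : ℝ) * δ ≤ e / 2 := by
      have h8 : (J.card : ℝ) ≤ n + 1 := by
        have : (J.card : ℝ) ≤ n := by exact_mod_cast h6
        linarith
      calc (J.card : ℝ) * δ ≤ (n + 1) * δ := mul_le_mul_of_nonneg_right h8 hδpos.le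
        _ = e / 2 := by
            rw [hδ]
            field_simp
    rw [Finset.sum_add_distrib, Finset.sum_const, nsmul_eq_mul]
    linarith

end Vale.Agent.P116.EndP
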