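import Vale.Agent.P116.KF.H694.EndP
import Vale.Agent.P116.KF.H408.Glue
import Vale.Agent.P116.KF.H862.Endp1

/-!
# END' from the averages of cutoffs
-/

namespace Vale.Agent.P116.EndP

theorem endP_of_E2 (h2 : E2) : KF.EndP := endp_of h2 endp1 endp4

end Vale.Agent.P116.EndP
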